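import Vale.Agent.P161.H391.Twist

/-!
The antiferromagnetic free Ising measure is a factor of IID up to and including the critical point.
-/

open MeasureTheory Filter Topology

namespace Vale.Agent.P161.H391

open Vale.Agent.P161

variable {V : Type*} {G : SimpleGraph V}

/-- the free Ising measure with a given parameter is unique -/
theorem isFreeIsing_unique (hG : G.IsTree) [G.LocallyFinite] {θ : ℝ} {μ ν : Measure (V → ℤˣ)}
    (hμ : IsFreeIsing G θ μ) (hν : IsFreeIsing G θ ν) : μ = ν := by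
  classical
  have := msc_units
  have := hμ.isProb
  have := hν.isProb
  have : Nonempty V := hG.connected.nonempty
  have hcyl : ∀ (D : Finset V) (η : D → ℤˣ),
      (D.restrict : (V → ℤˣ) → (D → ℤˣ)) ⁻¹' {η} = {σ : V → ℤˣ | ∀ v ∈ D, σ v = ext1 D η v} := by
    intro D η
    ext σ
    simp only [Set.mem_preimage, Set.mem_singleton_iff, Set.mem_ofPred_eq]
    constructor
    · rintro rfl v hv
      rw [ext1_of_mem _ hv]
      rfl
    · intro h
      funext ⟨v, hv⟩
      have := h v hv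
      rw [ext1_of_mem _ hv] at this
      exact this
  have hconn : ∀ D : Finset V, (G.induce (D : Set V)).Connected →
      μ.map D.restrict = ν.map D.restrict := by
    intro D hD
    refine Measure.ext_of_singleton fun η => ?_
    rw [Measure.map_apply (Finset.measurable_restrict D) (measurableSet_singleton _),
      Measure.map_apply (Finset.measurable_restrict D) (measurableSet_singleton _), hcyl,
      hμ.marginal _ hD, hν.marginal _ hD]
  have hall : ∀ I : Finset V, μ.map I.restrict = ν.map I.restrict := by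
    intro I
    obtain ⟨D, hID, hD⟩ := exists_connected_superset hG I
    have e : (I.restrict : (V → ℤˣ) → (I → ℤˣ)) = Finset.restrict₂ hID ∘ D.restrict := rfl
    have h2 := hconn D hD
    rw [e, ← Measure.map_map (Finset.measurable_restrict₂ hID) (Finset.measurable_restrict D),
      ← Measure.map_map (Finset.measurable_restrict₂ hID) (Finset.measurable_restrict D), h2]
  have : ∀ I : Finset V, IsFiniteMeasure (ν.map (I.restrict : (V → ℤˣ) → (I → ℤˣ))) :=
    fun I => inferInstance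
  exact IsProjectiveLimit.unique (P := fun I => ν.map I.restrict) (fun I => hall I) (fun I => rfl)

theorem isSign_comp {s : V → ℤˣ} (hs : IsSign G s) (g : G ≃g G) :
    IsSign G fun v => s (g.symm v) := fun _ _ huv => hs _ _ (g.symm.map_adj_iff.2 huv)

/-- the twisted measure is invariant under automorphisms -/
theorem twm_map_aut [G.LocallyFinite] (hG : G.IsTree) {s : V → ℤˣ} (hs : IsSign G s) {θ : ℝ}
    (h0 : 0 ≤ θ) (h1 : θ < 1) {μ : Measure (V → ℤˣ)} (hμ : IsFreeIsing G θ μ) (g : G ≃g G) :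
    (twm s μ).map (fun σ v => σ (g.symm v)) = twm s μ := by
  have hm : Measurable (fun (σ : V → ℤˣ) (v : V) => σ (g.symm v)) :=
    measurable_pi_lambda _ fun v => measurable_pi_apply _
  have e : (twm s μ).map (fun σ v => σ (g.symm v)) = twm (fun v => s (g.symm v)) μ := by
    unfold twm
    conv_rhs => rw [← hμ.map_aut hG h0 h1 g]
    rw [Measure.map_map hm (measurable_tw s), Measure.map_map (measurable_tw _) hm]
    rfl
  rw [e]
  exact isFreeIsing_unique hG (isFreeIsing_twm (isSign_comp hs g) hμ) (isFreeIsing_twm hs hμ)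

theorem prod_sr_sq (s : V → ℤˣ) (S : Finset V) : (∏ v ∈ S, sr s v) * ∏ v ∈ S, sr s v = 1 := by
  rw [← Finset.prod_mul_distrib]
  exact Finset.prod_eq_one fun v _ => sr_mul_self s v

theorem abs_prod_sr (s : V → ℤˣ) (S : Finset V) : |∏ v ∈ S, sr s v| = 1 := by
  rw [Finset.abs_prod]
  refine Finset.prod_eq_one fun v _ => ?_
  rcases sr_cases s v with h | h <;> rw [h] <;> norm_num

theorem integral_spS_twm (s : V → ℤˣ) (μ : Measure (V → ℤˣ)) (S : Finset V) :
    ∫ σ, spS S σ ∂(twm s μ) = (∏ v ∈ S, sr s v) * ∫ σ, spS S σ ∂μ := by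
  unfold twm
  have h : ∫ σ, spS S σ ∂(μ.map (tw s)) = ∫ σ, spS S (tw s σ) ∂μ :=
    integral_map (measurable_tw s).aemeasurable (measurable_spS S).aestronglyMeasurable
  rw [h, ← integral_const_mul]
  congr 1
  funext σ
  unfold spS
  rw [← Finset.prod_mul_distrib]
  exact Finset.prod_congr rfl fun v _ => sp_tw s σ v

/-- the factor from the convergence of the fields at all integer times, twisted -/
theorem twisted_factor_of_seq [Encodable V] [G.LocallyFinite] (hG : G.IsTree) {d : ℕ}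
    (hd : 2 ≤ d) (hreg : G.IsRegularOfDegree d) {s : V → ℤˣ} (hs : IsSign G s) {θ : ℕ → ℝ}
    {ν : ℕ → Measure (V → ℤˣ)} (h0 : ∀ n, 0 ≤ θ n) (h1 : ∀ n, ((d : ℝ) - 1) * θ n ^ 2 < 1)
    (h1' : ∀ n, θ n < 1) (hν : ∀ n, IsFreeIsing G (θ n) (ν n)) {θc : ℝ} (hc0 : 0 ≤ θc)
    (hc1 : θc < 1) (hlim : Tendsto θ atTop (𝓝 θc)) {μ : Measure (V → ℤˣ)}
    (hμ : IsFreeIsing G θc μ)
    (hconv : ∀ (t : ℕ) (v : V), Tendsto (fun p : ℕ × ℕ =>
      ∫ ω, (Minf hG (ν p.1) t v ω - Minf hG (ν p.2) t v ω) ^ 2 ∂(PP V))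
        (atTop ×ˢ atTop) (𝓝 0)) : IsFactorOfIID G (twm s μ) := by
  have := hμ.isProb
  have hprob : ∀ n, IsProbabilityMeasure (ν n) := fun n => (hν n).isProb
  have hrate : ∀ n, ∃ lam : ℝ, ∃ C : ℝ → ℝ, Rate G (ν n) lam C := by
    intro n
    obtain ⟨lam, C, hr⟩ := exists_rate hG hd hreg (h0 n) (h1 n) (h1' n)
    exact ⟨lam, C, hr (ν n) ((hν n).edgeSplit hG (h0 n) (h1' n))⟩
  have hae : ∀ n (t : ℝ) v, ∀ᵐ ω ∂(PP V),
      Minf hG (twm s (ν n)) t v ω = sr s v * Minf hG (ν n) t v (twO s ω) := by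
    intro n t v
    obtain ⟨lam, C, hr⟩ := hrate n
    exact Minf_twm s hr hG t v
  -- change of variables
  have hcv : ∀ {F : Om V → ℝ}, Measurable F →
      ∫ ω, F (twO s ω) ∂(PP V) = ∫ ω, F ω ∂(PP V) := by
    intro F hF
    have h := (mp_twO s)
    conv_rhs => rw [← h.map_eq]
    rw [integral_map h.measurable.aemeasurable hF.aestronglyMeasurable]
  have hsr : ∀ v (x y : ℝ), (sr s v * x - sr s v * y) ^ 2 = (x - y) ^ 2 := by
    intro v x y
    rcases sr_cases s v with h | h <;> rw [h] <;> ring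
  have hsq : ∀ n m (t t' : ℝ) v, ∫ ω, (Minf hG (twm s (ν n)) t v ω -
      Minf hG (twm s (ν m)) t' v ω) ^ 2 ∂(PP V) =
      ∫ ω, (Minf hG (ν n) t v ω - Minf hG (ν m) t' v ω) ^ 2 ∂(PP V) := by
    intro n m t t' v
    have e : ∫ ω, (Minf hG (twm s (ν n)) t v ω - Minf hG (twm s (ν m)) t' v ω) ^ 2 ∂(PP V) =
        ∫ ω, (fun ω => (Minf hG (ν n) t v ω - Minf hG (ν m) t' v ω) ^ 2) (twO s ω) ∂(PP V) := by
      refine integral_congr_ae ?_
      filter_upwards [hae n t v, hae m t' v] with ω e1 e2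
      rw [e1, e2, hsr]
    rw [e]
    exact hcv (((measurable_Minf t v).sub (measurable_Minf t' v)).pow_const 2)
  refine isFactorOfIID_of_family (μ := twm s μ) (fun n t v => Minf hG (twm s (ν n)) (t : ℝ) v)
    (fun n t v => measurable_Minf _ _) (fun n t v ω => abs_Minf_le _ _ _) ?_ ?_
    (β := bet) tendsto_bet ?_ ?_ (c := fun n S => ∫ σ, spS S σ ∂(twm s (ν n))) ?_ ?_
  · intro g n t v
    filter_upwards [ae_Minf_aut (hG := hG) g
      (twm_map_aut hG hs (h0 n) (h1' n) (hν n) g)] with ω hω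
    exact hω t v
  · intro t v δ hδ
    have h2 := (hconv t v).eventually_lt_const hδ
    rw [prod_atTop_atTop_eq, eventually_atTop] at h2
    obtain ⟨⟨N1, N2⟩, hN⟩ := h2
    refine ⟨max N1 N2, fun n hn m hm => ?_⟩
    rw [hsq]
    exact (hN (n, m) ⟨(le_max_left _ _).trans hn, (le_max_right _ _).trans hm⟩).le
  · intro n v s' t hst
    obtain ⟨lam, C, hr⟩ := hrate n
    have hst' : (s' : ℝ) ≤ t := by exact_mod_cast hst
    rw [hsq, hr.integral_Minf_mart hG hst' v]
    have h1 := hr.integral_Minf_var_le hG s' v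
    have i1 : Integrable (fun ω => Minf hG (ν n) (s' : ℝ) v ω ^ 2) (PP V) :=
      integrable_of_abs_le ((measurable_Minf _ _).pow_const 2)
        (fun ω => sq_le_one_of_abs (abs_Minf_le _ _ _))
    have i2 : Integrable (fun ω => Minf hG (ν n) (t : ℝ) v ω ^ 2) (PP V) :=
      integrable_of_abs_le ((measurable_Minf _ _).pow_const 2)
        (fun ω => sq_le_one_of_abs (abs_Minf_le _ _ _))
    have h2 : ∫ ω, (1 - Minf hG (ν n) (s' : ℝ) v ω ^ 2) ∂(PP V) =
        1 - ∫ ω, Minf hG (ν n) (s' : ℝ) v ω ^ 2 ∂(PP V) := by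
      rw [integral_sub (integrable_const _) i1]
      simp only [integral_const, probReal_univ, smul_eq_mul, mul_one]
    have h3 : ∫ ω, Minf hG (ν n) (t : ℝ) v ω ^ 2 ∂(PP V) ≤ 1 := by
      have h4 : ∫ ω, Minf hG (ν n) (t : ℝ) v ω ^ 2 ∂(PP V) ≤ ∫ _ω, (1 : ℝ) ∂(PP V) :=
        integral_mono i2 (integrable_const _)
          (fun ω => (abs_le.1 (sq_le_one_of_abs (abs_Minf_le _ _ _))).2)
      simpa only [ge_iff_le, integral_const, probReal_univ, smul_eq_mul, mul_one] using h4
    rw [h2] at h1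
    linarith only [h1, h3]
  · intro n t v
    obtain ⟨lam, C, hr⟩ := hrate n
    have e : ∫ ω, (1 - Minf hG (twm s (ν n)) (t : ℝ) v ω ^ 2) ∂(PP V) =
        ∫ ω, (fun ω => 1 - Minf hG (ν n) (t : ℝ) v ω ^ 2) (twO s ω) ∂(PP V) := by
      refine integral_congr_ae ?_
      filter_upwards [hae n t v] with ω e1
      simp only [e1]
      rcases sr_cases s v with h | h <;> rw [h] <;> ring
    rw [e, hcv (F := fun ω => 1 - Minf hG (ν n) (t : ℝ) v ω ^ 2)
      (measurable_const.sub ((measurable_Minf _ v).pow_const 2))]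
    exact hr.integral_Minf_var_le hG t v
  · intro S n t
    obtain ⟨lam, C, hr⟩ := hrate n
    have e : ∫ ω, ∏ v ∈ S, Minf hG (twm s (ν n)) (t : ℝ) v ω ∂(PP V) =
        (∏ v ∈ S, sr s v) * ∫ ω, ∏ v ∈ S, Minf hG (ν n) (t : ℝ) v ω ∂(PP V) := by
      have e1 : ∫ ω, ∏ v ∈ S, Minf hG (twm s (ν n)) (t : ℝ) v ω ∂(PP V) =
          ∫ ω, (fun ω => (∏ v ∈ S, sr s v) * ∏ v ∈ S, Minf hG (ν n) (t : ℝ) v ω)
            (twO s ω) ∂(PP V) := by
        refine integral_congr_ae ?_
        have h : ∀ᵐ ω ∂(PP V), ∀ v ∈ S,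
            Minf hG (twm s (ν n)) t v ω = sr s v * Minf hG (ν n) t v (twO s ω) :=
          (eventually_all_finset S).2 fun v _ => hae n t v
        filter_upwards [h] with ω hω
        rw [← Finset.prod_mul_distrib]
        exact Finset.prod_congr rfl fun v hv => hω v hv
      rw [e1, hcv (F := fun ω => (∏ v ∈ S, sr s v) * ∏ v ∈ S, Minf hG (ν n) (t : ℝ) v ω)
        ((Finset.measurable_fun_prod S fun v _ => measurable_Minf _ v).const_mul _),
        integral_const_mul]
    have h2 := hr.abs_integral_prod_Minf_sub_le hG S t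
    rw [e, integral_spS_twm, ← mul_sub, abs_mul, abs_prod_sr, one_mul]
    exact h2
  · intro S
    show Tendsto (fun n => ∫ σ, spS S σ ∂(twm s (ν n))) atTop (𝓝 (∫ σ, spS S σ ∂(twm s μ)))
    have e : (fun n => ∫ σ, spS S σ ∂(twm s (ν n))) =
        fun n => (∏ v ∈ S, sr s v) * ∫ σ, spS S σ ∂(ν n) := by
      funext n
      exact integral_spS_twm s (ν n) S
    rw [e, integral_spS_twm]
    exact (tendsto_integral_spS hG h0 h1' hc0 hc1 hlim hν hμ S).const_mul _

/-- the antiferromagnetic free Ising measure is a factor of IID below the critical point -/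
theorem anti_subcritical [G.LocallyFinite] (hG : G.IsTree) {d : ℕ} (hd : 2 ≤ d)
    (hreg : G.IsRegularOfDegree d) {θ : ℝ} (h0 : 0 ≤ θ) (h1 : ((d : ℝ) - 1) * θ ^ 2 < 1)
    (h1' : θ < 1) {μ : Measure (V → ℤˣ)} (hμ : IsFreeIsing G (-θ) μ) : IsFactorOfIID G μ := by
  have hcount : Countable V := countable_of_tree hG
  have : Encodable V := Encodable.ofCountable V
  obtain ⟨s, hs⟩ := exists_sign hG
  have hν := isFreeIsing_of_neg hs hμ
  have h := twisted_factor_of_seq hG hd hreg hs (θ := fun _ => θ) (ν := fun _ => twm s μ)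
    (fun _ => h0) (fun _ => h1) (fun _ => h1') (fun _ => hν) h0 h1' tendsto_const_nhds hν
    (fun t v => by simp)
  rwa [twm_twm] at h

/-- the antiferromagnetic free Ising measure is a factor of IID at the critical point -/
theorem anti_critical [G.LocallyFinite] (hG : G.IsTree) {d : ℕ} (hd : 3 ≤ d)
    (hreg : G.IsRegularOfDegree d) {θc : ℝ} (h0 : 0 < θc) (hcrit : ((d : ℝ) - 1) * θc ^ 2 = 1)
    {μ : Measure (V → ℤˣ)} (hμ : IsFreeIsing G (-θc) μ) : IsFactorOfIID G μ := by
  classical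
  have hcount : Countable V := countable_of_tree hG
  have : Encodable V := Encodable.ofCountable V
  obtain ⟨s, hs⟩ := exists_sign hG
  have hμ' := isFreeIsing_of_neg hs hμ
  obtain ⟨b, rfl⟩ : ∃ b, d = b + 1 := ⟨d - 1, by omega⟩
  have hne : Nonempty V := hG.connected.nonempty
  obtain ⟨a0⟩ := hne
  obtain ⟨b0, hab⟩ := exists_adj_of_regular (by omega) hreg a0
  obtain ⟨θ, ν, hS, hRB, hcau⟩ := exists_good_seqn hG hd hreg h0 hcrit hab
  have hc : 0 < θc ^ 2 / 12800 := by positivity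
  have h := twisted_factor_of_seq hG (by omega) hreg hs (θ := θ) (ν := ν)
    (fun n => hS.nonneg h0 n) (fun n => hS.sub hd h0 hcrit n) (fun n => hS.lt_one hd hcrit n)
    hS.ising h0.le (theta_lt_one hd hcrit) hS.lim hμ' (fun t v => by
      have h := conv_of_est hreg hS hd h0 hcrit hc hRB v
        (KI_nonneg b h0 (theta_lt_one hd hcrit))
        (hI_of_seqn hreg hS hd h0 hcrit hc hRB v) (δ := 1 / 4) (by norm_num)
        (hII_of_seqn hreg hS hd h0 hcrit hc hRB hab hcau v) t (Nat.cast_nonneg t)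
      exact h)
  rwa [twm_twm] at h

end Vale.Agent.P161.H391
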