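import Vale.Agent.P161.H391.Anti

/-!
The antiferromagnetic free Ising measure is not a factor of IID above the critical point.
-/

open MeasureTheory Filter Topology ProbabilityTheory

namespace Vale.Agent.P161.H391

open Vale.Agent.P161

variable {V : Type*} {G : SimpleGraph V}

theorem integral_sp_sp_twm [G.LocallyFinite] (hG : G.IsTree) {θ : ℝ} (h0 : 0 ≤ θ) (h1 : θ < 1)
    {s : V → ℤˣ} (hs : IsSign G s) {μ : Measure (V → ℤˣ)} (hμ : IsFreeIsing G (-θ) μ) (u v : V) :
    ∫ σ, sp σ u * sp σ v ∂μ = sr s v * (sr s u * θ ^ G.dist u v) := by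
  have hμ' := isFreeIsing_of_neg hs hμ
  have h := integral_sp_sp hG h0 h1 hμ' u v
  have e : ∫ σ, sp σ u * sp σ v ∂(twm s μ) = sr s u * sr s v * ∫ σ, sp σ u * sp σ v ∂μ := by
    unfold twm
    have h : ∫ σ, sp σ u * sp σ v ∂(μ.map (tw s)) = ∫ σ, sp (tw s σ) u * sp (tw s σ) v ∂μ :=
      integral_map (measurable_tw s).aemeasurable
        ((measurable_sp u).mul (measurable_sp v)).aestronglyMeasurable
    rw [h, ← integral_const_mul]
    congr 1
    funext σ
    rw [sp_tw, sp_tw]
    ring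
  rw [e] at h
  have h2 : sr s u * sr s v * (sr s u * sr s v * ∫ σ, sp σ u * sp σ v ∂μ) =
      ∫ σ, sp σ u * sp σ v ∂μ := by
    have e1 := sr_mul_self s u
    have e2 := sr_mul_self s v
    calc _ = (sr s u * sr s u) * (sr s v * sr s v) * ∫ σ, sp σ u * sp σ v ∂μ := by ring
      _ = _ := by rw [e1, e2]; ring
  rw [← h2, h]
  ring

theorem nb_sign [G.LocallyFinite] {s : V → ℤˣ} (hs : IsSign G s) (ψ : V → ℝ) (v : V) :
    nb G (fun u => sr s u * ψ u) v = sr s v * (-1 * nb G ψ v) := by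
  unfold nb
  rw [Finset.mul_sum, Finset.mul_sum]
  refine Finset.sum_congr rfl fun u hu => ?_
  rw [SimpleGraph.mem_neighborFinset] at hu
  have h1 : sr s u = - sr s v := by
    unfold sr
    rw [hs u v hu.symm]
    push_cast
    ring
  show sr s u * ψ u = sr s v * (-1 * ψ u)
  rw [h1]
  ring

theorem nb_iter_smul [G.LocallyFinite] (a : ℝ) (ψ : V → ℝ) (n : ℕ) (v : V) :
    (nb G)^[n] (fun u => a * ψ u) v = a * (nb G)^[n] ψ v := by
  induction n generalizing v with
  | zero => rfl
  | succ n ih =>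
    rw [Function.iterate_succ_apply', Function.iterate_succ_apply']
    have e : (nb G)^[n] (fun u => a * ψ u) = fun u => a * (nb G)^[n] ψ u := by
      funext u; exact ih u
    rw [e]
    unfold nb
    rw [Finset.mul_sum]

theorem nb_iter_sign [G.LocallyFinite] {s : V → ℤˣ} (hs : IsSign G s) (ψ : V → ℝ) (n : ℕ) (v : V) :
    (nb G)^[n] (fun u => sr s u * ψ u) v = sr s v * ((-1) ^ n * (nb G)^[n] ψ v) := by
  induction n generalizing v with
  | zero => simp
  | succ n ih =>
    rw [Function.iterate_succ_apply', Function.iterate_succ_apply']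
    have e : (nb G)^[n] (fun u => sr s u * ψ u) =
        fun u => sr s u * ((-1) ^ n * (nb G)^[n] ψ u) := by
      funext u; exact ih u
    rw [e, nb_sign hs]
    congr 1
    rw [pow_succ']
    unfold nb
    simp only [Finset.mul_sum]
    refine Finset.sum_congr rfl fun u _ => ?_
    ring

/-- the antiferromagnetic free Ising measure is not a factor of IID above the critical point -/
theorem not_factor_anti [G.LocallyFinite] (hG : G.IsTree) {d : ℕ} (hd : 2 ≤ d)
    (hreg : G.IsRegularOfDegree d) {θ : ℝ} (h0 : 0 ≤ θ) (h1 : θ < 1)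
    (hs : 1 < ((d : ℝ) - 1) * θ ^ 2) {μ : Measure (V → ℤˣ)} (hμ : IsFreeIsing G (-θ) μ) :
    ¬ IsFactorOfIID G μ := by
  obtain ⟨sg, hsg⟩ := exists_sign hG
  have hμ' := isFreeIsing_of_neg hsg hμ
  rintro ⟨Φ, hΦ, hequiv, hmap⟩
  have hprob := hμ.isProb
  obtain ⟨o⟩ := hG.connected.nonempty
  obtain ⟨c⟩ := exists_edgeCol hG (by omega) hreg
  have hθ : 0 < θ := by
    rcases h0.lt_or_eq with h | h
    · exact h
    · rw [← h] at hs
      norm_num at hs
  have hd1 : (0 : ℝ) < (d : ℝ) - 1 := by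
    by_contra h
    push Not at h
    have : ((d : ℝ) - 1) * θ ^ 2 ≤ 0 := mul_nonpos_of_nonpos_of_nonneg h (sq_nonneg _)
    linarith only [hs, this]
  set s : ℝ := 1 / Real.sqrt ((d : ℝ) - 1) with hsdef
  have hsq : 0 < Real.sqrt ((d : ℝ) - 1) := Real.sqrt_pos.2 hd1
  have hs0 : 0 < s := by (clear * - hd1; positivity)
  have hs2 : ((d : ℝ) - 1) * s ^ 2 = 1 := by
    rw [hsdef, div_pow, one_pow, Real.sq_sqrt hd1.le]
    (clear * - hd1; field_simp)
  have hsθ : s < θ := by
    have : s ^ 2 < θ ^ 2 := by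
      have h2 : ((d : ℝ) - 1) * s ^ 2 < ((d : ℝ) - 1) * θ ^ 2 := by rw [hs2]; exact hs
      exact lt_of_mul_lt_mul_left h2 hd1.le
    exact lt_of_pow_lt_pow_left₀ 2 hθ.le this
  have hs1 : s ≤ 1 := (hsθ.trans h1).le
  -- the field
  let f : V → (V → unitInterval) → ℝ := fun v ω => sp (Φ ω) v
  have hfm : ∀ v, Measurable (f v) := fun v => (measurable_sp v).comp hΦ
  have hf : Fld c 1 f := by
    refine ⟨hfm, fun v ω => ?_, fun g _ v => ?_⟩
    · rcases sp_eq_one_or (Φ ω) v with h | h <;> simp [f, h]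
    · filter_upwards [hequiv g] with ω hω
      show sp (Φ (shft g ω)) (g v) = sp (Φ ω) v
      have h2 : Φ (shft g ω) = fun v => Φ ω (g.symm v) := hω
      rw [h2]
      simp [sp]
  have hmean : ∫ ω, f o ω ∂(lab V) = 0 := by
    rw [← integral_sp_eq_zero hμ o, ← hmap, integral_map hΦ.aemeasurable
      (measurable_sp o).aestronglyMeasurable]
  have hcov : ∀ v, ∫ ω, f o ω * f v ω ∂(lab V) = sr sg v * (sr sg o * θ ^ G.dist o v) := by
    intro v
    have hm2 : Measurable fun σ : V → ℤˣ => sp σ o * sp σ v :=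
      (measurable_sp o).mul (measurable_sp v)
    rw [← integral_sp_sp_twm hG h0 h1 hsg hμ o v, ← hmap, integral_map hΦ.aemeasurable
      hm2.aestronglyMeasurable]
  -- lower bound
  obtain ⟨φ, hφo, hφle, hφe⟩ := exists_eigen hG hd hreg hθ h1 hs o
  set lam : ℝ := ((d : ℝ) - 1) * θ + 1 / θ with hlam
  have hlow : ∀ n : ℕ, Even n →
      lam ^ n * φ o ≤ ∫ ω, f o ω * (adjF (G := G))^[n] f o ω ∂(lab V) := by
    intro n hn
    rw [hf.corr_iter hreg hf o o n]
    simp only [hcov]
    rw [nb_iter_sign hsg, hn.neg_one_pow, one_mul, nb_iter_smul, ← mul_assoc, sr_mul_self, one_mul,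
      ← nb_iter_eigen hφe n o]
    exact nb_iter_mono hφle n o
  -- upper bound
  have hup : ∀ n : ℕ, ∫ ω, f o ω * (adjF (G := G))^[n] f o ω ∂(lab V) ≤ (2 / s) ^ n := by
    intro n
    refine le_of_forall_pos_le_add fun ε hε => ?_
    have hd0 : (0 : ℝ) < 2 * (d : ℝ) ^ n := by
      have : (0 : ℝ) < d := by exact_mod_cast (by omega : 0 < d)
      (clear * - hd; positivity)
    obtain ⟨B, φ', hφ'm, hφ'1, hφ'i, hφ'e⟩ := local_approx hG o (hfm o) (hf.bdd o)
      (δ := ε / (2 * (d : ℝ) ^ n)) (by positivity)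
    obtain ⟨h, hh, hho, K, hK, hKc⟩ := local_field hG c o B hφ'm hφ'1 (hφ'i.trans hmean) hs0 hs1
    refine (compare_fields hG hreg hf hh o n).trans ?_
    refine add_le_add ?_ ?_
    · have hN := hh.norm_iter_le hG hd hreg o hs0 hs2 hK hKc n
      have h1' : ∫ ω, h o ω * h o ω ∂(lab V) ≤ 1 := by
        have : ∫ ω, h o ω * h o ω ∂(lab V) ≤ ∫ ω, (1 : ℝ) ∂(lab V) := by
          refine integral_mono (hh.integrable_mul hh o o) (integrable_const _) fun ω => ?_
          show h o ω * h o ω ≤ 1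
          calc h o ω * h o ω ≤ |h o ω * h o ω| := le_abs_self _
            _ = |h o ω| * |h o ω| := abs_mul _ _
            _ ≤ 1 * 1 := mul_le_mul (hh.bdd o ω) (hh.bdd o ω) (abs_nonneg _) (by norm_num)
            _ = 1 := by norm_num
        simpa only [ge_iff_le, integral_const, probReal_univ, smul_eq_mul, mul_one] using this
      have h0' : 0 ≤ ∫ ω, h o ω * h o ω ∂(lab V) := integral_nonneg fun ω => mul_self_nonneg _
      have hCS := sq_integral_mul_le (P := lab V) (F := h o) (H := (adjF (G := G))^[n] h o)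
        (hh.integrable_mul hh o o) ((hh.iter hreg n).integrable_mul (hh.iter hreg n) o o)
        (hh.integrable_mul (hh.iter hreg n) o o)
      have h4 : (0 : ℝ) ≤ (4 / s ^ 2) ^ n := by (clear * - hd1; positivity)
      have h5 : (∫ ω, h o ω * (adjF (G := G))^[n] h o ω ∂(lab V)) ^ 2 ≤ ((2 / s) ^ n) ^ 2 := by
        calc _ ≤ _ := hCS
          _ ≤ 1 * ((4 / s ^ 2) ^ n * 1) := by
              refine mul_le_mul h1' (hN.trans ?_) (integral_nonneg fun ω => mul_self_nonneg _)
                (by norm_num)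
              exact mul_le_mul_of_nonneg_left h1' h4
          _ = ((2 / s) ^ n) ^ 2 := by
              have e4 : (4 / s ^ 2 : ℝ) = (2 / s) ^ 2 := by ring
              rw [one_mul, mul_one, ← pow_mul, mul_comm n 2, pow_mul, e4]
      exact abs_le_of_sq_le_sq' h5 (by (clear * - hd1; positivity)) |>.2
    · have h6 : ∫ ω, |f o ω - h o ω| ∂(lab V) ≤ ε / (2 * (d : ℝ) ^ n) := by
        simp only [hho]
        exact hφ'e
      calc 2 * (d : ℝ) ^ n * ∫ ω, |f o ω - h o ω| ∂(lab V) ≤
            2 * (d : ℝ) ^ n * (ε / (2 * (d : ℝ) ^ n)) := mul_le_mul_of_nonneg_left h6 hd0.le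
        _ = ε := by (clear * - hd hε; field_simp)
  -- conclusion
  have hgt : 1 < lam * s / 2 := by
    have h7 : lam * s / 2 - 1 = (θ / s - 1) ^ 2 * s / (2 * θ) := by
      have h8 : (d : ℝ) - 1 = 1 / s ^ 2 := by
        field_simp
        linarith only [hs2]
      rw [hlam, h8]
      field_simp
      ring
    have h9 : 0 < (θ / s - 1) ^ 2 * s / (2 * θ) := by
      have : 0 < θ / s - 1 := by
        rw [sub_pos, lt_div_iff₀ hs0]
        linarith only [hsθ]
      (clear * - this hd1 hθ; positivity)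
    linarith only [h7, h9]
  have hall : ∀ n : ℕ, Even n → (lam * s / 2) ^ n * φ o ≤ 1 := by
    intro n hn
    have h10 := (hlow n hn).trans (hup n)
    have h11 : (lam * s / 2) ^ n * φ o = (lam ^ n * φ o) * (s / 2) ^ n := by
      rw [show lam * s / 2 = lam * (s / 2) by ring, mul_pow]
      ring
    rw [h11]
    calc (lam ^ n * φ o) * (s / 2) ^ n ≤ (2 / s) ^ n * (s / 2) ^ n :=
          mul_le_mul_of_nonneg_right h10 (by (clear * - hd1; positivity))
      _ = 1 := by
          rw [← mul_pow]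
          have : 2 / s * (s / 2) = 1 := by (clear * - hs0; field_simp)
          rw [this, one_pow]
  obtain ⟨n, hn⟩ := pow_unbounded_of_one_lt (1 / φ o) hgt
  have h12 := hall (2 * n) ⟨n, by ring⟩
  have h13 : (lam * s / 2) ^ n ≤ (lam * s / 2) ^ (2 * n) :=
    pow_le_pow_right₀ hgt.le (by omega)
  rw [div_lt_iff₀ hφo] at hn
  have h14 := mul_le_mul_of_nonneg_right h13 hφo.le
  linarith only [hn, h12, h14]

end Vale.Agent.P161.H391
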