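import Vale.Agent.P161.Bdl.B3

/-!
Twisting the spins of a bipartite graph: the antiferromagnetic free Ising measure is the image of
the ferromagnetic one under a sign twist, and the sampling algorithm is compatible with it.
-/

open MeasureTheory Filter Topology

namespace Vale.Agent.P161.H391

open Vale.Agent.P161

variable {V : Type*} {G : SimpleGraph V}

/-- a proper two-colouring of the graph by signs -/
def IsSign (G : SimpleGraph V) (s : V → ℤˣ) : Prop := ∀ u v, G.Adj u v → s u = - s v

theorem exists_sign (hG : G.IsTree) : ∃ s : V → ℤˣ, IsSign G s := by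
  obtain ⟨o⟩ := hG.connected.nonempty
  refine ⟨fun v => (-1) ^ G.dist o v, fun u v huv => ?_⟩
  rcases dist_adj_cases hG huv o with h | h
  · show (-1 : ℤˣ) ^ G.dist o u = - (-1) ^ G.dist o v
    rw [h, pow_succ]; simp
  · show (-1 : ℤˣ) ^ G.dist o u = - (-1) ^ G.dist o v
    rw [h, pow_succ]; simp

/-- twist of a configuration -/
def tw (s σ : V → ℤˣ) : V → ℤˣ := fun v => s v * σ v

theorem tw_tw (s σ : V → ℤˣ) : tw s (tw s σ) = σ := by
  funext v
  simp only [tw]
  rw [← mul_assoc, Int.units_mul_self, one_mul]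

theorem measurable_tw (s : V → ℤˣ) : Measurable (tw s) := by
  have := msc_units
  refine measurable_pi_lambda _ fun v => ?_
  exact (measurable_of_countable (fun a : ℤˣ => s v * a)).comp (measurable_pi_apply v)

/-- twist of a measure -/
noncomputable def twm (s : V → ℤˣ) (μ : Measure (V → ℤˣ)) : Measure (V → ℤˣ) := μ.map (tw s)

theorem twm_twm (s : V → ℤˣ) (μ : Measure (V → ℤˣ)) : twm s (twm s μ) = μ := by
  unfold twm
  rw [Measure.map_map (measurable_tw s) (measurable_tw s)]
  have : tw s ∘ tw s = id := by funext σ; exact tw_tw s σ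
  rw [this, Measure.map_id]

instance isProb_twm (s : V → ℤˣ) (μ : Measure (V → ℤˣ)) [IsProbabilityMeasure μ] :
    IsProbabilityMeasure (twm s μ) :=
  Measure.isProbabilityMeasure_map (measurable_tw s).aemeasurable

/-- real value of the sign -/
def sr (s : V → ℤˣ) (v : V) : ℝ := ((s v : ℤ) : ℝ)

theorem sr_mul_self (s : V → ℤˣ) (v : V) : sr s v * sr s v = 1 := by
  unfold sr
  rcases Int.units_eq_one_or (s v) with h | h <;> rw [h] <;> norm_num

theorem sr_cases (s : V → ℤˣ) (v : V) : sr s v = 1 ∨ sr s v = -1 := by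
  unfold sr
  rcases Int.units_eq_one_or (s v) with h | h
  · left; rw [h]; norm_num
  · right; rw [h]; norm_num

theorem sp_tw (s σ : V → ℤˣ) (v : V) : sp (tw s σ) v = sr s v * sp σ v := by
  unfold sp tw sr
  push_cast
  ring

theorem isFreeIsing_twm {s : V → ℤˣ} (hs : IsSign G s) {θ : ℝ} {μ : Measure (V → ℤˣ)}
    (hμ : IsFreeIsing G θ μ) : IsFreeIsing G (-θ) (twm s μ) := by
  classical
  have := hμ.isProb
  have := msc_units
  refine ⟨isProb_twm s μ, fun D hD η => ?_⟩
  have hmeas : MeasurableSet {σ : V → ℤˣ | ∀ v ∈ D, σ v = η v} := by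
    have : {σ : V → ℤˣ | ∀ v ∈ D, σ v = η v} = ⋂ v ∈ D, (fun σ : V → ℤˣ => σ v) ⁻¹' {η v} := by
      ext σ; simp
    rw [this]
    exact Finset.measurableSet_biInter _ fun v _ =>
      measurable_pi_apply v (measurableSet_singleton _)
  unfold twm
  rw [Measure.map_apply (measurable_tw s) hmeas]
  have e : tw s ⁻¹' {σ : V → ℤˣ | ∀ v ∈ D, σ v = η v} = {σ | ∀ v ∈ D, σ v = tw s η v} := by
    ext σ
    simp only [Set.mem_preimage, Set.mem_ofPred_eq, tw]
    refine forall_congr' fun v => forall_congr' fun _ => ?_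
    constructor
    · intro h
      rw [← h, ← mul_assoc, Int.units_mul_self, one_mul]
    · intro h
      rw [h, ← mul_assoc, Int.units_mul_self, one_mul]
  rw [e, hμ.marginal D hD (tw s η)]
  congr 2
  refine Finset.prod_congr (by congr) fun e he => ?_
  rw [Finset.mem_filter] at he
  induction e using Sym2.ind with
  | _ u v =>
    have huv : G.Adj u v := he.2
    have h1 : s u = - s v := hs u v huv
    simp only [Sym2.map_mk, Sym2.mul_mk, tw]
    have h2 : s u * η u * (s v * η v) = -(η u * η v) := by
      rw [h1]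
      calc -s v * η u * (s v * η v) = -(s v * s v) * (η u * η v) := by
            rw [neg_mul, neg_mul, neg_mul]
            congr 1
            rw [mul_mul_mul_comm]
        _ = -(η u * η v) := by rw [Int.units_mul_self, neg_one_mul]
    rw [h2]
    push_cast
    ring

theorem isFreeIsing_of_neg {s : V → ℤˣ} (hs : IsSign G s) {θ : ℝ} {μ : Measure (V → ℤˣ)}
    (hμ : IsFreeIsing G (-θ) μ) : IsFreeIsing G θ (twm s μ) := by
  have := isFreeIsing_twm hs hμ
  rwa [neg_neg] at this

/-- twist of a history -/
def twH (s : V → ℤˣ) (H : List (V × ℝ)) : List (V × ℝ) := H.map fun p => (p.1, sr s p.1 * p.2)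

theorem lik_tw (s : V → ℤˣ) (H : List (V × ℝ)) (σ : V → ℤˣ) :
    lik H (tw s σ) = lik (twH s H) σ := by
  unfold lik twH
  rw [List.map_map]
  congr 1
  refine List.map_congr_left fun p _ => ?_
  simp only [Function.comp, sp_tw]
  ring

theorem measurable_lik (H : List (V × ℝ)) : Measurable fun σ : V → ℤˣ => lik H σ := by
  unfold lik
  induction H with
  | nil => simp only [List.map_nil, List.prod_nil]; exact measurable_const
  | cons p H ih =>
    simp only [List.map_cons, List.prod_cons]
    exact (measurable_const.add ((measurable_sp p.1).const_mul p.2)).mul ih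

theorem mean_twm (s : V → ℤˣ) (μ : Measure (V → ℤˣ)) (H : List (V × ℝ)) (v : V) :
    mean (twm s μ) H v = sr s v * mean μ (twH s H) v := by
  unfold mean post twm
  have e1 : ∫ σ, sp σ v * lik H σ ∂(μ.map (tw s)) =
      sr s v * ∫ σ, sp σ v * lik (twH s H) σ ∂μ := by
    have h : ∫ σ, sp σ v * lik H σ ∂(μ.map (tw s)) = ∫ σ, sp (tw s σ) v * lik H (tw s σ) ∂μ :=
      integral_map (measurable_tw s).aemeasurable
        (((measurable_sp v).mul (measurable_lik H)).aestronglyMeasurable)
    rw [h, ← integral_const_mul]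
    congr 1
    funext σ
    rw [lik_tw, sp_tw]
    ring
  have e2 : ∫ σ, lik H σ ∂(μ.map (tw s)) = ∫ σ, lik (twH s H) σ ∂μ := by
    have h : ∫ σ, lik H σ ∂(μ.map (tw s)) = ∫ σ, lik H (tw s σ) ∂μ :=
      integral_map (measurable_tw s).aemeasurable (measurable_lik H).aestronglyMeasurable
    rw [h]
    simp only [lik_tw]
  show (∫ σ, sp σ v * lik H σ ∂(μ.map (tw s))) / (∫ σ, lik H σ ∂(μ.map (tw s))) =
    sr s v * ((∫ σ, sp σ v * lik (twH s H) σ ∂μ) / (∫ σ, lik (twH s H) σ ∂μ))
  rw [e1, e2, mul_div_assoc]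

theorem chan_neg (b u : ℝ) : chan (-b) (1 - u) = - chan b u := by
  unfold chan
  have h1 : (1 - -b) ^ 2 + 4 * -b * (1 - u) = (1 - b) ^ 2 + 4 * b * u := by ring
  rw [h1, ← neg_div]
  congr 1
  ring

theorem obs_neg (e m u : ℝ) : obs e (-m) (1 - u) = - obs e m u := by
  unfold obs
  rw [mul_neg, chan_neg, mul_neg]

open Classical in
/-- twist of the noise: the labels of the negative vertices are reflected -/
noncomputable def twU (s : V → ℤˣ) (U : V × ℕ → unitInterval) : V × ℕ → unitInterval :=
  fun i => if s i.1 = 1 then U i else unitInterval.symm (U i)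

theorem obs_tw (s : V → ℤˣ) (e m : ℝ) (U : V × ℕ → unitInterval) (i : V × ℕ) :
    obs e (sr s i.1 * m) (U i : ℝ) = sr s i.1 * obs e m (twU s U i : ℝ) := by
  unfold twU sr
  rcases Int.units_eq_one_or (s i.1) with h | h
  · rw [h, if_pos rfl]; simp
  · rw [h, if_neg (by decide)]
    have h1 : ((unitInterval.symm (U i) : unitInterval) : ℝ) = 1 - (U i : ℝ) :=
      unitInterval.coe_symm_eq _
    rw [h1]
    have h2 := obs_neg e m (1 - (U i : ℝ))
    rw [sub_sub_cancel] at h2
    simp only [Units.val_neg, Units.val_one, Int.cast_neg, Int.cast_one, neg_mul, one_mul]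
    exact h2

theorem runE_twm (s : V → ℤˣ) (μ : Measure (V → ℤˣ)) (e : V × ℕ → ℝ)
    (U : V × ℕ → unitInterval) (l : List (V × ℕ)) :
    runE (twm s μ) e U l = twH s (runE μ e (twU s U) l) := by
  induction l with
  | nil => rfl
  | cons i l ih =>
    have hss : twH s (twH s (runE μ e (twU s U) l)) = runE μ e (twU s U) l := by
      unfold twH
      rw [List.map_map]
      have : ((fun p : V × ℝ => (p.1, sr s p.1 * p.2)) ∘ fun p => (p.1, sr s p.1 * p.2)) = id := by
        funext p
        simp only [Function.comp, id]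
        rw [← mul_assoc, sr_mul_self, one_mul]
      rw [this, List.map_id]
    rw [runE_cons, runE_cons, ih, mean_twm, hss, obs_tw]
    rfl

theorem mean_runE_twm (s : V → ℤˣ) (μ : Measure (V → ℤˣ)) (e : V × ℕ → ℝ)
    (U : V × ℕ → unitInterval) (l : List (V × ℕ)) (v : V) :
    mean (twm s μ) (runE (twm s μ) e U l) v = sr s v * mean μ (runE μ e (twU s U) l) v := by
  rw [runE_twm, mean_twm]
  congr 2
  unfold twH
  rw [List.map_map]
  have : ((fun p : V × ℝ => (p.1, sr s p.1 * p.2)) ∘ fun p => (p.1, sr s p.1 * p.2)) = id := by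
    funext p
    simp only [Function.comp, id]
    rw [← mul_assoc, sr_mul_self, one_mul]
  rw [this, List.map_id]

/-- twist of the labels -/
noncomputable def twO (s : V → ℤˣ) (ω : Om V) : Om V := (ω.1, twU s ω.2)

theorem mp_twU (s : V → ℤˣ) : MeasurePreserving (twU s) (noise V) (noise V) := by
  classical
  have hm : ∀ i : V × ℕ, Measurable (fun u : unitInterval =>
      if s i.1 = 1 then u else unitInterval.symm u) := by
    intro i
    by_cases h : s i.1 = 1
    · simp only [h, if_true]; exact measurable_id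
    · simp only [h, if_false]; exact unitInterval.measurable_symm
  have e : twU s = fun (x : V × ℕ → unitInterval) i =>
      (fun u : unitInterval => if s i.1 = 1 then u else unitInterval.symm u) (x i) := by
    funext x i
    unfold twU
    congr
  refine ⟨?_, ?_⟩
  · rw [e]
    exact measurable_pi_lambda _ fun i => (hm i).comp (measurable_pi_apply i)
  · rw [e]
    have h := Measure.infinitePi_map_pi
      (μ := fun _ : V × ℕ => (volume : Measure unitInterval)) hm
    refine h.trans ?_
    congr 1
    funext i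
    by_cases h : s i.1 = 1
    · simp only [h, if_true]; exact Measure.map_id
    · simp only [h, if_false]; exact unitInterval.measurePreserving_symm.map_eq

theorem mp_twO (s : V → ℤˣ) : MeasurePreserving (twO s) (PP V) (PP V) :=
  (MeasurePreserving.id (noise V)).prod (mp_twU s)

section Enc

variable [Encodable V]

theorem fvM_twm (s : V → ℤˣ) (μ : Measure (V → ℤˣ)) (B : Finset V) (t : ℝ) (v : V) (ω : Om V) :
    fvM (twm s μ) B t v ω = sr s v * fvM μ B t v (twO s ω) :=
  mean_runE_twm s μ _ _ _ v

variable [G.LocallyFinite] {μ : Measure (V → ℤˣ)} [IsProbabilityMeasure μ] {lam : ℝ} {C : ℝ → ℝ}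

/-- the infinite volume field of the twisted measure is the twisted field -/
theorem Minf_twm (s : V → ℤˣ) (hr : Rate G μ lam C) (hG : G.IsTree) (t : ℝ) (v : V) :
    ∀ᵐ ω ∂(PP V), Minf hG (twm s μ) t v ω = sr s v * Minf hG μ t v (twO s ω) := by
  have h1 := (mp_twO s).quasiMeasurePreserving.ae (hr.ae_tendsto hG t v)
  filter_upwards [h1] with ω hω
  have h2 : Tendsto (fun n => fvM (twm s μ) (bal hG v n) t v ω) atTop
      (𝓝 (sr s v * Minf hG μ t v (twO s ω))) := by
    simp only [fvM_twm]
    exact hω.const_mul _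
  exact h2.limsup_eq

end Enc

end Vale.Agent.P161.H391
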